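import Crest.Agent.N250.B1.Nest
import Crest.Agent.N250.B2.Defs

-- ▼ part N250/EX/Core
section

/-!
# Row 250 (helper21): expansions from full-disc cells

`F ρ` is holomorphic on `U × ball 0 ρ`, neighbouring scales differ by `C exp (-c / ρ)`.  Then there
are holomorphic `cf n`, homogeneous of degree `n` in the second variable, with
`‖F ρ z - ∑_{n<N} cf n z‖ ≤ C_N (‖z.2‖ ^ N + exp (-c / (4 ρ)))`.
-/

set_option autoImplicit false
set_option linter.unusedSectionVars false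

open Metric Set Filter Topology Complex

noncomputable section

namespace Crest.Agent.N250.EX

open Nest

variable {Y A G : Type*} [NormedAddCommGroup Y] [NormedSpace ℂ Y] [NormedAddCommGroup A]
  [NormedSpace ℂ A] [NormedAddCommGroup G] [NormedSpace ℂ G] [CompleteSpace G]

theorem D_scale (s : ℂ) (g : ℂ → G) : D (fun μ => g (s * μ)) = fun μ => s • D g (s * μ) := by
  funext μ
  by_cases h : μ = 0
  · subst h
    simp only [D, dslope_same, mul_zero]
    simpa using deriv_comp_mul_left s g 0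
  · by_cases hs : s = 0
    · subst hs; simp [D, dslope_of_ne _ h, slope]
    · simp only [D, dslope_of_ne _ h, dslope_of_ne _ (mul_ne_zero hs h), slope, smul_smul,
        sub_zero, mul_zero, vsub_eq_sub]
      congr 1
      field_simp

theorem D_smul (s : ℂ) (g : ℂ → G) : D (fun μ => s • g μ) = fun μ => s • D g μ := by
  funext μ
  by_cases h : μ = 0
  · subst h
    simp only [D, dslope_same]
    exact deriv_fun_const_smul_field s g
  · simp only [D, dslope_of_ne _ h, slope, vsub_eq_sub, ← smul_sub, smul_comm s]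

theorem iter_smul (s : ℂ) (n : ℕ) : ∀ g : ℂ → G,
    D^[n] (fun μ => s • g μ) = fun μ => s • D^[n] g μ := by
  induction n with
  | zero => exact fun _ => rfl
  | succ n ih => intro g; rw [Function.iterate_succ_apply, D_smul, ih]; rfl

theorem iter_scale (s : ℂ) (n : ℕ) : ∀ g : ℂ → G,
    D^[n] (fun μ => g (s * μ)) = fun μ => s ^ n • D^[n] g (s * μ) := by
  induction n with
  | zero => intro g; simp
  | succ n ih =>
    intro g
    rw [Function.iterate_succ_apply, D_scale, iter_smul s n fun μ => D g (s * μ), ih]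
    simp only [smul_smul, pow_succ', Function.iterate_succ_apply]

theorem co_scale (s : ℂ) (n : ℕ) (g : ℂ → G) : co n (fun μ => g (s * μ)) = s ^ n • co n g := by
  simp [co, iter_scale]

/-- full-disc cells at all scales `ρ ≤ ρ0` -/
structure Sc (U : Set Y) (ρ0 M C c : ℝ) (F : ℝ → Y × A → G) : Prop where
  isOpen : IsOpen U
  pos : 0 < ρ0
  le1 : ρ0 ≤ 1
  cpos : 0 < c
  Cnn : 0 ≤ C
  hd : ∀ ρ ∈ Ioc 0 ρ0, DifferentiableOn ℂ (F ρ) (U ×ˢ ball 0 ρ)
  le : ∀ z ∈ U ×ˢ ball (0 : A) ρ0, ‖F ρ0 z‖ ≤ M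
  inc : ∀ ρ ∈ Ioc 0 ρ0, ∀ ρ' ∈ Icc (ρ / 2) ρ, ∀ z ∈ U ×ˢ ball (0 : A) ρ',
    ‖F ρ' z - F ρ z‖ ≤ C * Real.exp (-c / ρ)

/-- dyadic radii -/
def rr (ρ0 : ℝ) (k : ℕ) : ℝ := ρ0 / 2 ^ k

/-- the rays -/
def ray (ρ0 : ℝ) (F : ℝ → Y × A → G) (k : ℕ) (z : Y × A) (μ : ℂ) : G :=
  F (rr ρ0 k) (z.1, μ • z.2)

/-- the homogeneous parts -/
def cf (ρ0 : ℝ) (F : ℝ → Y × A → G) (n : ℕ) : Y × A → G := cl (ray ρ0 F) n

/-- the truncations -/
def tr (ρ0 : ℝ) (F : ℝ → Y × A → G) (N : ℕ) (z : Y × A) : G :=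
  ∑ n ∈ Finset.range N, cf ρ0 F n z

variable {U : Set Y} {ρ0 M C c : ℝ} {F : ℝ → Y × A → G}

theorem rr_pos (h : 0 < ρ0) (k : ℕ) : 0 < rr ρ0 k := by unfold rr; positivity

theorem rr_succ (ρ0 : ℝ) (k : ℕ) : rr ρ0 (k + 1) = rr ρ0 k / 2 := by
  unfold rr; rw [pow_succ, div_div]

theorem rr_le (h : 0 < ρ0) (k j : ℕ) : rr ρ0 (k + j) ≤ rr ρ0 k := by
  unfold rr
  gcongr
  · norm_num
  · omega

theorem rr_mem (h : 0 < ρ0) (k : ℕ) : rr ρ0 k ∈ Ioc 0 ρ0 :=
  ⟨rr_pos h k, by simpa [rr] using rr_le h 0 k⟩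

theorem mem_ray {r : ℝ} {z : Y × A} (hz : z ∈ U ×ˢ ball (0 : A) 1) {μ : ℂ}
    (hμ : μ ∈ ball (0 : ℂ) r) : ((z.1, μ • z.2) : Y × A) ∈ U ×ˢ ball (0 : A) r := by
  refine ⟨hz.1, ?_⟩
  have h1 := mem_ball_zero_iff.1 hz.2
  have h2 := mem_ball_zero_iff.1 hμ
  rw [mem_ball_zero_iff, norm_smul]
  exact (mul_le_of_le_one_right (norm_nonneg _) h1.le).trans_lt h2

theorem Sc.fam (h : Sc U ρ0 M C c F) : Fam (U ×ˢ ball (0 : A) 1) (rr ρ0)
    (fun k => C * Real.exp (-c / rr ρ0 k)) M (ray ρ0 F) where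
  pos := rr_pos h.pos
  anti k := rr_le h.pos k 1
  le0 z hz μ hμ := by
    have : rr ρ0 0 = ρ0 := by simp [rr]
    rw [this] at hμ
    simpa [ray, this] using h.le _ (mem_ray hz hμ)
  hd k z hz := (h.hd _ (rr_mem h.pos k)).comp (f := fun μ : ℂ => ((z.1, μ • z.2) : Y × A))
    (by fun_prop) fun μ hμ => mem_ray hz hμ
  par k μ hμ := (h.hd _ (rr_mem h.pos k)).comp (f := fun z : Y × A => ((z.1, μ • z.2) : Y × A))
    (by fun_prop) fun z hz => mem_ray hz hμ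
  inc k z hz μ hμ := h.inc _ (rr_mem h.pos k) _ ⟨(rr_succ ρ0 k).ge, rr_le h.pos k 1⟩ _
    (mem_ray hz hμ)

theorem term_le (hc : 0 < c) {r : ℝ} (hr : 0 < r) (n : ℕ) :
    (2 / (r / 2)) ^ n * Real.exp (-c / r) ≤
      4 ^ n * ((n + 1).factorial / (c / 2) ^ (n + 1)) * r * Real.exp (-c / (2 * r)) := by
  have h1 := Real.pow_div_factorial_le_exp (c / 2 / r) (by positivity) (n + 1)
  have h2 : Real.exp (-c / r) = Real.exp (-c / (2 * r)) / Real.exp (c / 2 / r) := by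
    rw [← Real.exp_sub]; congr 1; field_simp; ring
  have h3 : (0 : ℝ) < (n + 1).factorial := by positivity
  rw [h2, ← mul_div_assoc, div_le_iff₀ (Real.exp_pos _)]
  calc (2 / (r / 2)) ^ n * Real.exp (-c / (2 * r))
      = 4 ^ n * ((n + 1).factorial / (c / 2) ^ (n + 1)) * r * Real.exp (-c / (2 * r)) *
        ((c / 2 / r) ^ (n + 1) / (n + 1).factorial) := by
        rw [show (2 / (r / 2)) = 4 / r by field_simp; norm_num]
        simp only [div_pow]
        field_simp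
        ring
    _ ≤ _ := by gcongr

/-- the constant of the tails -/
def Kc (C c : ℝ) (n : ℕ) : ℝ := C * (4 ^ n * ((n + 1).factorial / (c / 2) ^ (n + 1)))

theorem Sc.Kc_nn (h : Sc U ρ0 M C c F) (n : ℕ) : 0 ≤ Kc C c n := by
  have := h.cpos; have := h.Cnn; unfold Kc; positivity

theorem Sc.term (h : Sc U ρ0 M C c F) (n k j : ℕ) :
    (2 / rr ρ0 (k + j + 1)) ^ n * (C * Real.exp (-c / rr ρ0 (k + j))) ≤
      Kc C c n * Real.exp (-c / (2 * rr ρ0 k)) * (1 / 2) ^ j := by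
  have h0 := rr_pos h.pos (k + j)
  have h1 := term_le h.cpos h0 n
  have h2 : Real.exp (-c / (2 * rr ρ0 (k + j))) ≤ Real.exp (-c / (2 * rr ρ0 k)) := by
    rw [Real.exp_le_exp, neg_div, neg_div, neg_le_neg_iff]
    have := rr_le h.pos k j
    have := h.cpos
    gcongr
  have h3 : rr ρ0 (k + j) ≤ (1 / 2) ^ j := by
    rw [add_comm]
    refine (rr_le h.pos j k).trans ?_
    rw [rr, one_div, inv_pow, div_eq_mul_inv]
    exact mul_le_of_le_one_left (by positivity) h.le1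
  have := h.cpos
  have := h.Cnn
  rw [rr_succ, mul_left_comm]
  calc _ ≤ C * (4 ^ n * ((n + 1).factorial / (c / 2) ^ (n + 1)) * (1 / 2) ^ j *
        Real.exp (-c / (2 * rr ρ0 k))) := by
        refine mul_le_mul_of_nonneg_left (h1.trans ?_) h.Cnn
        gcongr
    _ = _ := by unfold Kc; ring

theorem Sc.term_nn (h : Sc U ρ0 M C c F) (n k : ℕ) :
    0 ≤ (2 / rr ρ0 (k + 1)) ^ n * (C * Real.exp (-c / rr ρ0 k)) := by
  have := rr_pos h.pos (k + 1); have := h.Cnn; positivity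

theorem Sc.summ' (h : Sc U ρ0 M C c F) (n k : ℕ) :
    Summable fun j => (2 / rr ρ0 (k + j + 1)) ^ n * (C * Real.exp (-c / rr ρ0 (k + j))) :=
  .of_nonneg_of_le (fun j => h.term_nn n (k + j)) (h.term n k) (summable_geometric_two.mul_left _)

theorem Sc.summ (h : Sc U ρ0 M C c F) (n : ℕ) :
    Summable fun j => (2 / rr ρ0 (j + 1)) ^ n * (C * Real.exp (-c / rr ρ0 j)) := by
  simpa using h.summ' n 0

theorem Sc.tsum_le (h : Sc U ρ0 M C c F) (n k : ℕ) :
    ∑' j, (2 / rr ρ0 (k + j + 1)) ^ n * (C * Real.exp (-c / rr ρ0 (k + j))) ≤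
      Kc C c n * Real.exp (-c / (2 * rr ρ0 k)) * 2 := by
  refine ((h.summ' n k).tsum_le_tsum (h.term n k) (summable_geometric_two.mul_left _)).trans_eq ?_
  rw [tsum_mul_left, tsum_geometric_two]

theorem Sc.cf_diff (h : Sc U ρ0 M C c F) (n : ℕ) :
    DifferentiableOn ℂ (cf ρ0 F n) (U ×ˢ ball 0 1) :=
  h.fam.cl_diff (h.isOpen.prod isOpen_ball) (h.summ n)

theorem Sc.tr_diff (h : Sc U ρ0 M C c F) (N : ℕ) :
    DifferentiableOn ℂ (tr ρ0 F N) (U ×ˢ ball 0 1) :=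
  DifferentiableOn.fun_sum fun n _ => h.cf_diff n

theorem Sc.cf_le (h : Sc U ρ0 M C c F) (n : ℕ) :
    ∃ K, ∀ z ∈ U ×ˢ ball (0 : A) 1, ‖cf ρ0 F n z‖ ≤ K :=
  ⟨_, fun _ hz => h.fam.cl_le (h.summ n) hz⟩

/-- homogeneity -/
theorem Sc.cf_smul (h : Sc U ρ0 M C c F) (n : ℕ) {z : Y × A} (hz : z ∈ U ×ˢ ball (0 : A) 1)
    {s : ℂ} (hs : (z.1, s • z.2) ∈ U ×ˢ ball (0 : A) 1) :
    cf ρ0 F n (z.1, s • z.2) = s ^ n • cf ρ0 F n z := by
  refine tendsto_nhds_unique (h.fam.tendsto (h.summ n) hs) ?_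
  refine ((h.fam.tendsto (h.summ n) hz).const_smul (s ^ n)).congr fun k => ?_
  rw [← co_scale]
  congr 1
  funext μ
  simp only [ray, smul_smul, mul_comm]

/-- writing a point on a ray -/
theorem exists_ray {a : A} {r : ℝ} (ha : ‖a‖ < r) :
    ∃ (s : ℝ) (b : A), 0 ≤ s ∧ s < r ∧ s ≤ 2 * ‖a‖ ∧ ‖b‖ < 1 ∧ (s : ℂ) • b = a := by
  by_cases h0 : a = 0
  · exact ⟨0, 0, le_rfl, by simpa [h0] using ha, by simp, by simp, by simp [h0]⟩
  have hp := norm_pos_iff.2 h0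
  have h1 : ‖a‖ < min (2 * ‖a‖) ((‖a‖ + r) / 2) := lt_min (by linarith) (by linarith)
  set s := min (2 * ‖a‖) ((‖a‖ + r) / 2)
  have hs : 0 < s := hp.trans h1
  refine ⟨s, (s : ℂ)⁻¹ • a, hs.le, (min_le_right _ _).trans_lt (by linarith), min_le_left _ _,
    ?_, ?_⟩
  · rw [norm_smul, norm_inv, Complex.norm_real, Real.norm_of_nonneg hs.le, inv_mul_lt_iff₀ hs]
    simpa using h1
  · rw [smul_smul, mul_inv_cancel₀ (by exact_mod_cast hs.ne'), one_smul]

theorem Sc.cf_le_pow (h : Sc U ρ0 M C c F) (n : ℕ) :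
    ∃ K, ∀ z ∈ U ×ˢ ball (0 : A) 1, ‖cf ρ0 F n z‖ ≤ K * ‖z.2‖ ^ n := by
  obtain ⟨K, hK⟩ := h.cf_le n
  refine ⟨max K 0 * 2 ^ n, fun z hz => ?_⟩
  obtain ⟨s, b, h0, -, h2, h3, h4⟩ := exists_ray (mem_ball_zero_iff.1 hz.2)
  have hb : (z.1, b) ∈ U ×ˢ ball (0 : A) 1 := ⟨hz.1, mem_ball_zero_iff.2 h3⟩
  have := h.cf_smul n hb (s := s) (by simpa only [h4] using hz)
  simp only [h4] at this
  rw [this, norm_smul, norm_pow, Complex.norm_real, Real.norm_of_nonneg h0, mul_assoc,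
    ← mul_pow, mul_comm]
  exact mul_le_mul ((hK _ hb).trans (le_max_left _ _)) (by gcongr) (by positivity)
    (le_max_right _ _)

theorem exists_scale (h0 : 0 < ρ0) {ρ : ℝ} (hρ : ρ ∈ Ioc 0 ρ0) :
    ∃ k, ρ ∈ Icc (rr ρ0 k / 2) (rr ρ0 k) := by
  classical
  have hex : ∃ k, rr ρ0 (k + 1) ≤ ρ := by
    obtain ⟨k, hk⟩ := pow_unbounded_of_one_lt (ρ0 / ρ) (one_lt_two (α := ℝ))
    refine ⟨k, (rr_le h0 k 1).trans ?_⟩
    rw [rr, div_le_iff₀ (by positivity)]
    rw [div_lt_iff₀ hρ.1] at hk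
    linarith
  refine ⟨Nat.find hex, by rw [← rr_succ]; exact Nat.find_spec hex, ?_⟩
  rcases hk : Nat.find hex with _ | k
  · simpa [rr] using hρ.2
  · exact (not_le.1 (Nat.find_min hex (m := k) (by omega))).le

/-- **the expansion** -/
theorem Sc.expand (h : Sc U ρ0 M C c F) (N : ℕ) : ∃ K, 0 ≤ K ∧ ∀ ρ ∈ Ioc 0 ρ0,
    ∀ z ∈ U ×ˢ ball (0 : A) ρ, ‖F ρ z - tr ρ0 F N z‖ ≤ K * (‖z.2‖ ^ N + Real.exp (-c / (4 * ρ))) := by
  set K1 := 2 ^ N * ((2 / rr ρ0 0) ^ N * max M 0 + Kc C c N * 2) with hK1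
  set K2 := C + ∑ n ∈ Finset.range N, Kc C c n * 2 with hK2
  have p0 := rr_pos h.pos 0
  have k1 : 0 ≤ K1 := by have := h.Kc_nn N; positivity
  have k2 : 0 ≤ K2 := add_nonneg h.Cnn (Finset.sum_nonneg fun n _ => by
    have := h.Kc_nn n; positivity)
  refine ⟨K1 + K2, by positivity, fun ρ hρ z hz => ?_⟩
  obtain ⟨k, hk⟩ := exists_scale h.pos hρ
  have pk := rr_pos h.pos k
  have hc := h.cpos
  have ha := mem_ball_zero_iff.1 hz.2
  obtain ⟨s, b, h0, h1, h2, h3, h4⟩ := exists_ray (ha.trans_le hk.2)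
  have hb : (z.1, b) ∈ U ×ˢ ball (0 : A) 1 := ⟨hz.1, mem_ball_zero_iff.2 h3⟩
  have hz1 : z ∈ U ×ˢ ball (0 : A) 1 :=
    ⟨hz.1, mem_ball_zero_iff.2 (ha.trans_le (hρ.2.trans h.le1))⟩
  have hs : ‖(s : ℂ)‖ = s := by rw [Complex.norm_real, Real.norm_of_nonneg h0]
  have s1 : s ≤ 1 := h1.le.trans ((rr_mem h.pos k).2.trans h.le1)
  have e1 := h.fam.rem N (fun n _ => h.summ n) hb k (a := s) (by rwa [mem_ball_zero_iff, hs])
  have e2 : ∑ n ∈ Finset.range N, (s : ℂ) ^ n • cl (ray ρ0 F) n (z.1, b) = tr ρ0 F N z :=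
    Finset.sum_congr rfl fun n _ => by
      have := h.cf_smul n hb (s := s) (by simpa only [h4] using hz1)
      simp only [h4] at this
      exact this.symm
  have e3 : ray ρ0 F k (z.1, b) s = F (rr ρ0 k) z := by simp only [ray, h4]
  rw [e2, e3, hs] at e1
  have e4 := h.inc _ (rr_mem h.pos k) ρ hk z hz
  have x1 : Real.exp (-c / (2 * rr ρ0 k)) ≤ Real.exp (-c / (4 * ρ)) := by
    rw [Real.exp_le_exp, neg_div, neg_div, neg_le_neg_iff]
    exact div_le_div_of_nonneg_left hc.le (by positivity) (by linarith [hk.1])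
  have x2 : Real.exp (-c / rr ρ0 k) ≤ Real.exp (-c / (4 * ρ)) := by
    rw [Real.exp_le_exp, neg_div, neg_div, neg_le_neg_iff]
    exact div_le_div_of_nonneg_left hc.le pk (by linarith [hk.1, hρ.1])
  have y1 : ∑ j ∈ Finset.range k, (2 / rr ρ0 (j + 1)) ^ N * (C * Real.exp (-c / rr ρ0 j)) ≤
      Kc C c N * 2 := by
    refine ((h.summ N).sum_le_tsum _ fun j _ => h.term_nn N j).trans ?_
    have := h.tsum_le N 0
    simp only [zero_add] at this
    refine this.trans ?_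
    have : Real.exp (-c / (2 * rr ρ0 0)) ≤ 1 := Real.exp_le_one_iff.2
      (div_nonpos_of_nonpos_of_nonneg (by linarith) (by positivity))
    have := h.Kc_nn N
    nlinarith
  have y2 : s ^ N * ((2 / rr ρ0 0) ^ N * M + ∑ j ∈ Finset.range k,
      (2 / rr ρ0 (j + 1)) ^ N * (C * Real.exp (-c / rr ρ0 j))) ≤ K1 * ‖z.2‖ ^ N := by
    calc _ ≤ (2 * ‖z.2‖) ^ N * ((2 / rr ρ0 0) ^ N * max M 0 + Kc C c N * 2) := by
          refine (mul_le_mul_of_nonneg_left (add_le_add (mul_le_mul_of_nonneg_left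
            (le_max_left M 0) (by positivity)) y1) (by positivity)).trans ?_
          have := h.Kc_nn N
          gcongr
      _ = _ := by rw [hK1, mul_pow]; ring
  have y3 : ∑ n ∈ Finset.range N, s ^ n * ∑' j, (2 / rr ρ0 (k + j + 1)) ^ n *
      (C * Real.exp (-c / rr ρ0 (k + j))) ≤
      (∑ n ∈ Finset.range N, Kc C c n * 2) * Real.exp (-c / (4 * ρ)) := by
    rw [Finset.sum_mul]
    refine Finset.sum_le_sum fun n _ => ?_
    have := h.Kc_nn n
    refine (mul_le_of_le_one_left (tsum_nonneg fun j => h.term_nn n (k + j))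
      (pow_le_one₀ h0 s1)).trans ((h.tsum_le n k).trans ?_)
    nlinarith
  have := norm_sub_le_norm_sub_add_norm_sub (F ρ z) (F (rr ρ0 k) z) (tr ρ0 F N z)
  have w1 := mul_le_mul_of_nonneg_left x2 h.Cnn
  have w2 : 0 ≤ K1 * Real.exp (-c / (4 * ρ)) := by positivity
  have w3 : 0 ≤ K2 * ‖z.2‖ ^ N := by positivity
  have w4 : (K1 + K2) * (‖z.2‖ ^ N + Real.exp (-c / (4 * ρ))) = K1 * ‖z.2‖ ^ N +
      K1 * Real.exp (-c / (4 * ρ)) + K2 * ‖z.2‖ ^ N + (C * Real.exp (-c / (4 * ρ)) +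
      (∑ n ∈ Finset.range N, Kc C c n * 2) * Real.exp (-c / (4 * ρ))) := by rw [hK2]; ring
  linarith


end Crest.Agent.N250.EX

end
end

-- ▼ part N250/EX/Main

/-!
# Row 250 (helper21): `EXStmt`
-/

set_option autoImplicit false
set_option linter.unusedSectionVars false

open Metric Set Filter Topology Function

noncomputable section

namespace Crest.Agent.N250.EX

open Nest B2

section
variable {Y A G : Type*} [NormedAddCommGroup Y] [NormedSpace ℂ Y] [NormedAddCommGroup A]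
  [NormedSpace ℂ A] [NormedAddCommGroup G] [NormedSpace ℂ G] [CompleteSpace G]
  {U : Set Y} {ρ0 M C c : ℝ} {F : ℝ → Y × A → G}

theorem exp_le_pow (hc : 0 < c) (N : ℕ) : ∃ K, 0 ≤ K ∧ ∀ ρ, 0 < ρ → Real.exp (-c / ρ) ≤ K * ρ ^ N := by
  refine ⟨N.factorial / c ^ N, by positivity, fun ρ hρ => ?_⟩
  have h1 := Real.pow_div_factorial_le_exp (c / ρ) (by positivity) N
  have h3 : (0 : ℝ) < N.factorial := by positivity
  rw [neg_div, Real.exp_neg, inv_le_comm₀ (Real.exp_pos _) (by positivity)]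
  refine le_trans (le_of_eq ?_) h1
  rw [div_pow]; field_simp

theorem exp_mono (hc : 0 < c) {s t : ℝ} (hs : 0 < s) (h : s ≤ t) :
    Real.exp (-c / s) ≤ Real.exp (-c / t) := by
  rw [Real.exp_le_exp, neg_div, neg_div, neg_le_neg_iff]
  exact div_le_div_of_nonneg_left hc.le hs h

/-- the expansion with the sharp rate -/
theorem Sc.expand' (h : Sc U ρ0 M C c F) (N : ℕ) : ∃ K, 0 ≤ K ∧ ∀ ρ ∈ Ioc 0 ρ0,
    ∀ z ∈ U ×ˢ ball (0 : A) ρ, ‖F ρ z - tr ρ0 F N z‖ ≤ K * (‖z.2‖ ^ N + Real.exp (-c / ρ)) := by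
  obtain ⟨K, hK, H⟩ := h.expand N
  obtain ⟨L, hL, HL⟩ := exp_le_pow h.cpos N
  have hC := h.Cnn
  refine ⟨K + 2 * C + K * (L * 16 ^ N), by positivity, fun ρ hρ z hz => ?_⟩
  have p1 : 0 ≤ ‖z.2‖ ^ N := by positivity
  have p2 := (Real.exp_pos (-c / ρ)).le
  have hρ0 := hρ.1
  rcases lt_or_ge ‖z.2‖ (ρ / 4) with ha | ha
  · have h2 : ρ / 2 ∈ Ioc 0 ρ0 := ⟨by positivity, by linarith [hρ.2]⟩
    have h4 : ρ / 4 ∈ Ioc 0 ρ0 := ⟨by positivity, by linarith [hρ.2]⟩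
    have e1 := h.inc ρ hρ (ρ / 2) ⟨le_rfl, by linarith⟩ z
      ⟨hz.1, mem_ball_zero_iff.2 (by linarith)⟩
    have e2 := h.inc _ h2 (ρ / 4) ⟨by linarith, by linarith⟩ z ⟨hz.1, mem_ball_zero_iff.2 ha⟩
    have e3 := H _ h4 z ⟨hz.1, mem_ball_zero_iff.2 ha⟩
    rw [show 4 * (ρ / 4) = ρ by ring] at e3
    have e4 := mul_le_mul_of_nonneg_left (exp_mono h.cpos h2.1 (by linarith : ρ / 2 ≤ ρ)) hC
    have t1 := norm_sub_le_norm_sub_add_norm_sub (F ρ z) (F (ρ / 2) z) (tr ρ0 F N z)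
    have t2 := norm_sub_le_norm_sub_add_norm_sub (F (ρ / 2) z) (F (ρ / 4) z) (tr ρ0 F N z)
    rw [norm_sub_rev] at e1 e2
    have : 0 ≤ K * (L * 16 ^ N) * (‖z.2‖ ^ N + Real.exp (-c / ρ)) := by positivity
    nlinarith [mul_nonneg hC p1]
  · have e1 := H ρ hρ z hz
    have e2 : Real.exp (-c / (4 * ρ)) ≤ L * 16 ^ N * ‖z.2‖ ^ N := by
      refine (HL _ (by positivity)).trans ?_
      rw [mul_assoc, ← mul_pow]
      exact mul_le_mul_of_nonneg_left (pow_le_pow_left₀ (by positivity) (by linarith) N) hL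
    have e3 := mul_le_mul_of_nonneg_left e2 hK
    have : 0 ≤ K * (L * 16 ^ N) * Real.exp (-c / ρ) := by positivity
    nlinarith [mul_nonneg hC p1, mul_nonneg hC p2, mul_nonneg hK p2]

end

theorem co_real {r : ℝ} (hr : 0 < r) (n : ℕ) : ∀ {g : ℂ → ℂ}, DifferentiableOn ℂ g (ball 0 r) →
    (∀ t : ℝ, |t| < r → (g t).im = 0) → (co n g).im = 0 := by
  induction n with
  | zero => intro g _ h; simpa [co] using h 0 (by simpa using hr)
  | succ n ih =>
    intro g hg h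
    have hD := D_diff hr hg
    have hne : ∀ t : ℝ, t ≠ 0 → |t| < r → (D g t).im = 0 := fun t ht h1 => by
      have e : D g t = ((t⁻¹ : ℝ) : ℂ) * (g t - g 0) := by
        simp [D, dslope_of_ne _ (Complex.ofReal_ne_zero.2 ht), slope]
      have h0 : (g 0).im = 0 := by simpa using h 0 (by simpa using hr)
      rw [e, Complex.im_ofReal_mul, Complex.sub_im, h t h1, h0]; simp
    refine ih hD fun t h1 => ?_
    by_cases ht : t = 0
    · subst ht
      have c1 : ContinuousAt (fun s : ℝ => (D g s).im) 0 :=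
        Complex.continuous_im.continuousAt.comp (ContinuousAt.comp (f := fun s : ℝ => (s : ℂ))
          (by rw [Complex.ofReal_zero]
              exact (hD.differentiableAt (ball_mem_nhds _ hr)).continuousAt)
          Complex.continuous_ofReal.continuousAt)
      refine tendsto_nhds_unique_of_eventuallyEq (l := 𝓝[≠] (0 : ℝ))
        (c1.tendsto.mono_left nhdsWithin_le_nhds) tendsto_const_nhds ?_
      filter_upwards [mem_nhdsWithin_of_mem_nhds (ball_mem_nhds (0 : ℝ) hr), self_mem_nhdsWithin]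
        with s a b using hne s b (by simpa using a)
    · exact hne t ht h1

variable {ι κ Γ : Type} [Fintype ι] [Fintype κ] [DecidableEq κ] {Q : Cells Γ}
  {F : (κ → Γ) → (ι ⊕ κ → ℂ) → ℂ} {r c C : ℝ}

theorem adm_disc (Q : Cells Γ) {ρ : ℝ} (h0 : 0 < ρ) (h1 : ρ < Q.ρ0) :
    Q.Adm (fun _ : κ => Q.disc ρ) := fun _ => Q.adm_disc ρ h0 h1

/-- comparison of any piece with a larger full disc -/
theorem cmp_disc (h : Wk Q F r c C) {U : κ → Γ} (hU : Q.Adm U) {ρ : ℝ} (h0 : 0 < ρ)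
    (h1 : ρ < Q.ρ0) (hs : ∀ j, Q.sz (U j) ≤ ρ) {z : ι ⊕ κ → ℂ} (hz : z ∈ Q.Dom r U) :
    ‖F U z - F (fun _ => Q.disc ρ) z‖ ≤ Fintype.card κ * max C 0 * Real.exp (-c / ρ) := by
  have key : ∀ s : Finset κ, ‖F U z - F (fun j => if j ∈ s then Q.disc ρ else U j) z‖ ≤
      s.card * max C 0 * Real.exp (-c / ρ) := by
    intro s
    induction s using Finset.induction_on with
    | empty => simp
    | insert j s hj ih =>
      set V : κ → Γ := fun j => if j ∈ s then Q.disc ρ else U j with hV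
      have hVa : Q.Adm V := fun i => by
        simp only [hV]; split_ifs
        exacts [Q.adm_disc ρ h0 h1, hU i]
      have hzV : z ∈ Q.Dom r V := ⟨hz.1, fun i => by
        simp only [hV]; split_ifs
        · rw [Q.dom_disc ρ h0 h1]
          exact ball_subset_ball (hs i) (Q.sub _ (hU i) (hz.2 i))
        · exact hz.2 i⟩
      have e : (fun i => if i ∈ insert j s then Q.disc ρ else U i) = update V j (Q.disc ρ) := by
        funext i
        by_cases hi : i = j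
        · subst hi; simp
        · simp [hV, hi]
      have h2 := h.cmp V hVa j ρ (by simpa [hV, hj] using hs j) h1 z hzV
      have h3 := norm_sub_le_norm_sub_add_norm_sub (F U z) (F V z) (F (update V j (Q.disc ρ)) z)
      have h4 := mul_le_mul_of_nonneg_right (le_max_left C 0) (Real.exp_pos (-c / ρ)).le
      rw [e, Finset.card_insert_of_notMem hj]
      push_cast
      linarith
  simpa using key Finset.univ

/-- the full-disc pieces on a product -/
def pc (Q : Cells Γ) (F : (κ → Γ) → (ι ⊕ κ → ℂ) → ℂ) (ρ : ℝ) (z : (ι → ℂ) × (κ → ℂ)) : ℂ :=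
  F (fun _ => Q.disc ρ) (Sum.elim z.1 z.2)

/-- splitting of the coordinates -/
def sp (z : ι ⊕ κ → ℂ) : (ι → ℂ) × (κ → ℂ) := (fun i => z (Sum.inl i), aa z)

theorem elim_sp (z : ι ⊕ κ → ℂ) : Sum.elim (sp z).1 (sp z).2 = z := by
  funext i; cases i <;> rfl

theorem mem_dom (hr : 0 < r) {ρ : ℝ} (h0 : 0 < ρ) (h1 : ρ < Q.ρ0) {z : (ι → ℂ) × (κ → ℂ)}
    (hz : z ∈ ball (0 : ι → ℂ) r ×ˢ ball (0 : κ → ℂ) ρ) :
    Sum.elim z.1 z.2 ∈ Q.Dom r (fun _ : κ => Q.disc ρ) :=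
  ⟨(pi_norm_lt_iff hr).1 (mem_ball_zero_iff.1 hz.1), fun j => by
    rw [Q.dom_disc ρ h0 h1]
    exact mem_ball_zero_iff.2 ((pi_norm_lt_iff h0).1 (mem_ball_zero_iff.1 hz.2) j)⟩

theorem sp_mem {z : ι ⊕ κ → ℂ} (hz : ‖z‖ < min r 1) :
    sp z ∈ ball (0 : ι → ℂ) r ×ˢ ball (0 : κ → ℂ) 1 := by
  have h := (norm_nonneg _).trans_lt hz
  rw [lt_min_iff] at h hz
  exact ⟨mem_ball_zero_iff.2 ((pi_norm_lt_iff h.1).2 fun i => (norm_le_pi_norm z _).trans_lt hz.1),
    mem_ball_zero_iff.2 ((pi_norm_lt_iff h.2).2 fun i => (norm_le_pi_norm z _).trans_lt hz.2)⟩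

theorem sc_pc (h : Wk Q F r c C) : Sc (ball (0 : ι → ℂ) r) (min (Q.ρ0 / 2) 1) C
    (Fintype.card κ * max C 0) c (pc Q F) := by
  have p0 := Q.ρ0_pos
  have hlt : ∀ ρ ∈ Ioc 0 (min (Q.ρ0 / 2) 1), ρ < Q.ρ0 := fun ρ hρ =>
    (hρ.2.trans (min_le_left _ _)).trans_lt (by linarith)
  have p1 : 0 < min (Q.ρ0 / 2) 1 := by positivity
  refine ⟨isOpen_ball, p1, min_le_right _ _, h.c_pos, by positivity, fun ρ hρ => ?_,
    fun z hz => ?_, fun ρ hρ ρ' hρ' z hz => ?_⟩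
  · refine (h.hol _ (adm_disc Q hρ.1 (hlt ρ hρ))).comp
      (f := fun z : (ι → ℂ) × (κ → ℂ) => Sum.elim z.1 z.2) ?_
      fun z hz => mem_dom h.r_pos hρ.1 (hlt ρ hρ) hz
    refine (differentiable_pi.2 fun i => ?_).differentiableOn
    cases i <;> simp only [Sum.elim_inl, Sum.elim_inr] <;> fun_prop
  · have := hlt _ ⟨p1, le_rfl⟩
    exact h.bdd _ (adm_disc Q p1 this) _ (mem_dom h.r_pos p1 this hz)
  · have a0 : 0 < ρ' := lt_of_lt_of_le (by linarith [hρ.1]) hρ'.1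
    have a1 : ρ' < Q.ρ0 := hρ'.2.trans_lt (hlt ρ hρ)
    exact cmp_disc h (adm_disc Q a0 a1) hρ.1 (hlt ρ hρ)
      (fun _ => (Q.sz_disc ρ' a0 a1).trans_le hρ'.2) (mem_dom h.r_pos a0 a1 hz)

theorem tendsto_exp_inv (hc : 0 < c) :
    Tendsto (fun ρ : ℝ => Real.exp (-c / ρ)) (𝓝[>] 0) (𝓝 0) := by
  refine Real.tendsto_exp_atBot.comp ?_
  exact tendsto_inv_nhdsGT_zero.const_mul_atTop_of_neg (r := -c) (by linarith)

theorem exStmt : EXStmt := by
  intro ι κ Γ _ _ _ Q F r c C h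
  have S := sc_pc h
  set ρ1 := min (Q.ρ0 / 2) 1 with hρ1
  have p0 := Q.ρ0_pos
  have hlt : ∀ ρ, ρ ≤ ρ1 → ρ < Q.ρ0 := fun ρ hρ =>
    (hρ.trans (min_le_left _ _)).trans_lt (by linarith)
  have hb : ∀ N, ∃ K, ∀ z ∈ ball (0 : ι ⊕ κ → ℂ) (min r 1), ‖tr ρ1 (pc Q F) N (sp z)‖ ≤ K := by
    intro N
    choose K hK using S.cf_le
    exact ⟨∑ n ∈ Finset.range N, K n, fun z hz => (norm_sum_le _ _).trans
      (Finset.sum_le_sum fun n _ => hK n _ (sp_mem (mem_ball_zero_iff.1 hz)))⟩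
  refine ⟨fun N z => tr ρ1 (pc Q F) N (sp z), min r 1, lt_min h.r_pos one_pos, min_le_left _ _,
    fun N => ?_, hb, fun N x hx => ?_, fun N => ?_, fun N => ?_⟩
  · refine (S.tr_diff N).comp (f := sp) ?_ fun z hz => sp_mem (mem_ball_zero_iff.1 hz)
    refine Differentiable.differentiableOn ?_
    unfold sp aa
    fun_prop
  · have hn : ‖(ofR x : ι ⊕ κ → ℂ)‖ < min r 1 := by
      refine (pi_norm_lt_iff ((norm_nonneg _).trans_lt hx)).2 fun i => ?_
      simpa [ofR] using (norm_le_pi_norm x i).trans_lt hx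
    have hm := sp_mem hn
    simp only [tr, Complex.im_sum]
    refine Finset.sum_eq_zero fun n _ => ?_
    refine tendsto_nhds_unique ((Complex.continuous_im.tendsto _).comp
      (S.fam.tendsto (S.summ n) hm)) (tendsto_const_nhds.congr fun k => ?_)
    have q := rr_mem S.pos k
    refine (co_real q.1 n (S.fam.hd k _ hm) fun t ht => ?_).symm
    have e : Sum.elim (sp (ofR x)).1 ((t : ℂ) • (sp (ofR x)).2) =
        ofR (Sum.elim (fun i => x (Sum.inl i)) fun j => t * x (Sum.inr j)) := by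
      funext i; cases i <;> simp [sp, aa, ofR]
    have hd := mem_dom h.r_pos q.1 (hlt _ q.2) (mem_ray hm (μ := t) (by simpa using ht))
    simp only [e] at hd
    simpa only [ray, pc, e] using h.real _ q.1 (hlt _ q.2) _ hd
  · obtain ⟨K, hK⟩ := S.cf_le_pow N
    refine ⟨K, fun z hz => ?_⟩
    simp only [tr, Finset.sum_range_succ, add_sub_cancel_left]
    exact hK _ (sp_mem (mem_ball_zero_iff.1 hz))
  · obtain ⟨K, hK0, hK⟩ := S.expand' N
    obtain ⟨B, hB⟩ := hb N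
    have hC := S.Cnn
    set L := Fintype.card κ * max C 0 with hL
    have main : ∀ U, Q.Adm U → ∀ z ∈ Q.Dom r U, ∀ ρ ∈ Ioc 0 ρ1, (∀ j, Q.sz (U j) ≤ ρ) →
        ‖F U z - tr ρ1 (pc Q F) N (sp z)‖ ≤ (K + L) * (‖aa z‖ ^ N + Real.exp (-c / ρ)) := by
      intro U hU z hz ρ hρ hs
      have e1 := cmp_disc h hU hρ.1 (hlt _ hρ.2) hs hz
      have e2 := hK ρ hρ (sp z) ⟨mem_ball_zero_iff.2 ((pi_norm_lt_iff h.r_pos).2 hz.1),
        mem_ball_zero_iff.2 ((pi_norm_lt_iff hρ.1).2 fun j =>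
          (mem_ball_zero_iff.1 (Q.sub _ (hU j) (hz.2 j))).trans_le (hs j))⟩
      rw [pc, elim_sp] at e2
      have e3 := norm_sub_le_norm_sub_add_norm_sub (F U z) (F (fun _ => Q.disc ρ) z)
        (tr ρ1 (pc Q F) N (sp z))
      have : 0 ≤ L * ‖aa z‖ ^ N := by positivity
      change _ ≤ K * (‖aa z‖ ^ N + _) at e2
      nlinarith
    have pe := Real.exp_pos (-c / ρ1)
    refine ⟨K + L + max (C + B) 0 / Real.exp (-c / ρ1), fun U hU z hz hn => ?_⟩
    have p1 : 0 ≤ ‖aa z‖ ^ N := by positivity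
    have p2 : 0 ≤ Q.er c U := Finset.sum_nonneg fun j _ => (Real.exp_pos _).le
    have p3 : 0 ≤ max (C + B) 0 / Real.exp (-c / ρ1) := by positivity
    rcases isEmpty_or_nonempty κ with hκ | hκ
    · have t : Tendsto (fun ρ : ℝ => (K + L) * (‖aa z‖ ^ N + Real.exp (-c / ρ))) (𝓝[>] 0)
          (𝓝 ((K + L) * (‖aa z‖ ^ N + 0))) :=
        ((tendsto_exp_inv h.c_pos).const_add _).const_mul _
      have := ge_of_tendsto t (b := ‖F U z - tr ρ1 (pc Q F) N (sp z)‖) (by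
        filter_upwards [Ioc_mem_nhdsGT S.pos] with ρ hρ
        exact main U hU z hz ρ hρ fun j => hκ.elim j)
      refine this.trans ?_
      exact mul_le_mul (by linarith) (by linarith) (by linarith) (by linarith)
    · obtain ⟨j, hj⟩ := Finite.exists_max fun j => Q.sz (U j)
      have s0 : 0 < Q.sz (U j) :=
        (norm_nonneg _).trans_lt (mem_ball_zero_iff.1 (Q.sub _ (hU j) (hz.2 j)))
      have e0 : Real.exp (-c / Q.sz (U j)) ≤ Q.er c U :=
        Finset.single_le_sum (f := fun j => Real.exp (-c / Q.sz (U j)))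
          (fun j _ => (Real.exp_pos _).le) (Finset.mem_univ j)
      rcases le_or_gt (Q.sz (U j)) ρ1 with hs | hs
      · refine (main U hU z hz _ ⟨s0, hs⟩ hj).trans ?_
        exact mul_le_mul (by linarith) (by linarith) (by positivity) (by linarith)
      · have e1 := (norm_sub_le _ _).trans
          (add_le_add (h.bdd U hU z hz) (hB z (mem_ball_zero_iff.2 hn)))
        have e2 := (exp_mono h.c_pos S.pos hs.le).trans e0
        calc _ ≤ max (C + B) 0 / Real.exp (-c / ρ1) * Real.exp (-c / ρ1) := by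
              rw [div_mul_cancel₀ _ pe.ne']; exact e1.trans (le_max_left _ _)
          _ ≤ _ := mul_le_mul (by linarith) (by linarith) pe.le (by linarith)

end Crest.Agent.N250.EX

end
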